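import Vale.Agent.P331I.Defs
import Vale.Agent.P331I.Layers

/-!
P331: dyadic levels protected by shifted sample flats; pointwise facts.
-/

namespace Vale.Agent.P331J

open Finset Vale.Agent.P331I
open scoped ENNReal NNReal

variable {α : Type} [Fintype α] [DecidableEq α]

/-- Powers of two. -/
noncomputable def tw (k : ℤ) : ℝ≥0 := (2 : ℝ≥0) ^ k

lemma tw_pos (k : ℤ) : 0 < tw k := zpow_pos (by norm_num) k

lemma tw_add (a b : ℤ) : tw (a + b) = tw a * tw b := zpow_add₀ (by norm_num) a b

lemma tw_lt_iff {a b : ℤ} : tw a < tw b ↔ a < b := zpow_lt_zpow_iff_right₀ (by norm_num)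

lemma tw_le_iff {a b : ℤ} : tw a ≤ tw b ↔ a ≤ b := zpow_le_zpow_iff_right₀ (by norm_num)

lemma tw_natCast (n : ℕ) : tw n = (2 : ℝ≥0) ^ n := zpow_natCast _ _

lemma tw_succ (k : ℤ) : tw (k + 1) = 2 * tw k := by
  rw [tw_add, mul_comm]; simp [tw]

/-- `v` is in the dyadic level `k`. -/
def inLev (k : ℤ) (v : ℝ≥0) : Prop := tw k < v ∧ v ≤ tw (k + 1)

lemma inLev_unique {k k' : ℤ} {v : ℝ≥0} (h : inLev k v) (h' : inLev k' v) : k = k' := by
  have h1 := tw_lt_iff.1 (h.1.trans_le h'.2)
  have h2 := tw_lt_iff.1 (h'.1.trans_le h.2)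
  omega

lemma exists_inLev {v : ℝ≥0} (h : 0 < v) : ∃ k, inLev k v := by
  obtain ⟨n, hn1, hn2⟩ := exists_mem_Ioc_zpow (y := (2 : ℝ≥0)) h (by norm_num)
  exact ⟨n, hn1, hn2⟩

/-- The elements whose value exceeds `2^m`. -/
noncomputable def Th (W : α → ℝ≥0) (m : ℤ) : Finset α := univ.filter fun f => tw m < W f

lemma mem_Th {W : α → ℝ≥0} {m : ℤ} {f : α} : f ∈ Th W m ↔ tw m < W f := by simp [Th]

lemma Th_anti (W : α → ℝ≥0) {m m' : ℤ} (h : m ≤ m') : Th W m' ⊆ Th W m := fun f hf =>
  mem_Th.2 ((tw_le_iff.2 h).trans_lt (mem_Th.1 hf))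

open Classical in
/-- The elements in level `k`. -/
noncomputable def Wl (V : α → ℝ≥0) (k : ℤ) : Finset α := univ.filter fun f => inLev k (V f)

lemma mem_Wl {V : α → ℝ≥0} {k : ℤ} {f : α} : f ∈ Wl V k ↔ inLev k (V f) := by simp [Wl]

/-- `e` lies in the closure of `X`. -/
def InCl (M : Matroid α) (e : α) (X : Finset α) : Prop := rho M (insert e X) = rho M X

lemma InCl.mono {M : Matroid α} {e : α} {X Y : Finset α} (h : InCl M e X) (hXY : X ⊆ Y) :
    InCl M e Y := rho_insert_eq M hXY h

lemma inCl_of_mem {M : Matroid α} {e : α} {X : Finset α} (h : e ∈ X) : InCl M e X := by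
  rw [InCl, insert_eq_of_mem h]

/-- The level is active for the seed. -/
def act (P : ℕ) (j : Fin (2 * P)) (k : ℤ) : Prop := k % ((2 * P : ℕ) : ℤ) = ((j : ℕ) : ℤ)

lemma act_gap {P : ℕ} {j : Fin (2 * P)} {k k' : ℤ} (h : act P j k) (h' : act P j k')
    (hlt : k < k') : k + 2 * (P : ℤ) ≤ k' := by
  unfold act at h h'
  have hd : ((2 * P : ℕ) : ℤ) ∣ k' - k :=
    Int.dvd_of_emod_eq_zero (Int.emod_eq_emod_iff_emod_sub_eq_zero.1 (h'.trans h.symm))
  have := Int.le_of_dvd (by omega) hd
  push_cast at this
  omega

open Classical in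
/-- Previously accepted elements of level `k`, read from the history. -/
noncomputable def histLev (h : List (α × ℝ≥0)) (A : Finset α) (k : ℤ) : Finset α :=
  A.filter fun a => ∃ v, (a, v) ∈ h ∧ inLev k v

/-- The rule. -/
def shiftDec (M : Matroid α) (P : ℕ) : Policy α (Fin (2 * P)) := fun S j h A e v =>
  ∃ k : ℤ, inLev k v ∧ act P j k ∧ InCl M e (Th S (k - P)) ∧
    rho M (insert e (Th S (k + P) ∪ histLev h A k))
      = rho M (Th S (k + P)) + (histLev h A k).card + 1

open Classical in
/-- The candidates of a level. -/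
noncomputable def Cand (M : Matroid α) (P : ℕ) (S V : α → ℝ≥0) (k : ℤ) : Finset α :=
  (Wl V k).filter fun e => InCl M e (Th S (k - P))

/-- Independence level by level over the protected flats. -/
def Inv (M : Matroid α) (P : ℕ) (j : Fin (2 * P)) (S V : α → ℝ≥0) (A : Finset α) : Prop :=
  (∀ a ∈ A, ∃ k, inLev k (V a) ∧ act P j k ∧ InCl M a (Th S (k - P))) ∧
    ∀ k, act P j k →
      rho M (Th S (k + P) ∪ (A ∩ Wl V k)) = rho M (Th S (k + P)) + (A ∩ Wl V k).card

variable {M : Matroid α} {P : ℕ} {j : Fin (2 * P)} {S V : α → ℝ≥0}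

lemma Inv.empty : Inv M P j S V ∅ := by
  constructor <;> simp

lemma Inv.insert {A : Finset α} {e : α} {k : ℤ} (h : Inv M P j S V A) (hk : inLev k (V e))
    (hact : act P j k) (hcl : InCl M e (Th S (k - P)))
    (hr : rho M (Insert.insert e (Th S (k + P) ∪ (A ∩ Wl V k)))
      = rho M (Th S (k + P)) + (A ∩ Wl V k).card + 1) :
    Inv M P j S V (Insert.insert e A) := by
  have heA : e ∉ A := by
    intro hA
    rw [insert_eq_of_mem (mem_union_right _ (mem_inter.2 ⟨hA, mem_Wl.2 hk⟩)), h.2 k hact] at hr
    omega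
  refine ⟨fun a ha => ?_, fun i hi => ?_⟩
  · rcases mem_insert.1 ha with rfl | ha
    · exact ⟨k, hk, hact, hcl⟩
    · exact h.1 a ha
  · by_cases hik : i = k
    · subst hik
      rw [insert_inter_of_mem (mem_Wl.2 hk), union_insert, hr,
        card_insert_of_notMem fun hx => heA (mem_inter.1 hx).1]
      omega
    · rw [insert_inter_of_notMem fun hx => hik (inLev_unique (mem_Wl.1 hx) hk)]
      exact h.2 i hi

lemma Inv.indep {A : Finset α} (h : Inv M P j S V A) : M.Indep (A : Set α) := by
  rw [indep_iff_rho]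
  induction A using Finset.strongInduction with
  | H A ih =>
    rcases A.eq_empty_or_nonempty with rfl | hne
    · exact le_antisymm (rho_le_card M _) (by simp)
    classical
    have hl : ∀ a ∈ A, ∃ k, inLev k (V a) := fun a ha => ⟨_, (h.1 a ha).choose_spec.1⟩
    obtain ⟨a, ha, hmin⟩ := exists_min_image A V hne
    obtain ⟨k, hka, hact, -⟩ := h.1 a ha
    set B := A ∩ Wl V k
    set A' := A \ Wl V k
    have hA'ssub : A' ⊂ A := (ssubset_iff_of_subset sdiff_subset).2
      ⟨a, ha, fun hx => (mem_sdiff.1 hx).2 (mem_Wl.2 hka)⟩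
    have hA' : Inv M P j S V A' := by
      refine ⟨fun x hx => h.1 x (mem_sdiff.1 hx).1, fun i hi => ?_⟩
      by_cases hik : i = k
      · subst hik
        have : A' ∩ Wl V i = ∅ := sdiff_inter_self _ _
        simp [this]
      · have : A' ∩ Wl V i = A ∩ Wl V i := by
          ext x
          simp only [A', mem_inter, mem_sdiff, mem_Wl]
          exact ⟨fun hx => ⟨hx.1.1, hx.2⟩,
            fun hx => ⟨⟨hx.1, fun hk' => hik (inLev_unique hx.2 hk')⟩, hx.2⟩⟩
        rw [this]
        exact h.2 i hi
    have hr' := ih A' hA'ssub hA'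
    have hspan : rho M (Th S (k + P) ∪ A') = rho M (Th S (k + P)) := by
      refine rho_union_eq M fun x hx => ?_
      obtain ⟨i, hix, hacti, hcl⟩ := h.1 x (mem_sdiff.1 hx).1
      have hki : k < i := by
        rcases lt_trichotomy k i with hlt | heq | hgt
        · exact hlt
        · exact absurd (mem_Wl.2 (heq ▸ hix)) (mem_sdiff.1 hx).2
        · have := (hix.2.trans (tw_le_iff.2 (show i + 1 ≤ k by omega))).trans_lt hka.1
          exact absurd (hmin x (mem_sdiff.1 hx).1) (not_le.2 this)
      have := act_gap hact hacti hki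
      exact hcl.mono (Th_anti S (by omega))
    have hsub := rho_submod M A (Th S (k + P) ∪ A')
    have e1 : A' ⊆ A ∩ (Th S (k + P) ∪ A') := subset_inter sdiff_subset subset_union_right
    have e2 : Th S (k + P) ∪ B ⊆ A ∪ (Th S (k + P) ∪ A') := by
      intro x hx
      rcases mem_union.1 hx with hx | hx
      · exact mem_union_right _ (mem_union_left _ hx)
      · exact mem_union_left _ (mem_inter.1 hx).1
    have e3 : A'.card + B.card = A.card := by
      rw [add_comm]; exact card_inter_add_card_sdiff A (Wl V k)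
    have := rho_mono M e1
    have := rho_mono M e2
    have : rho M (Th S (k + P) ∪ B) = rho M (Th S (k + P)) + B.card := h.2 k hact
    have := rho_le_card M A
    omega

/-- What holds after the run. -/
lemma run_spec : ∀ (l pre : List α) (A : Finset α), Inv M P j S V A → (∀ a ∈ A, a ∈ pre) →
    let F := run M (shiftDec M P) S j V (pre.map fun a => (a, V a)) A l
    Inv M P j S V F ∧ A ⊆ F ∧ ∀ e ∈ l, ∀ k, inLev k (V e) → act P j k →
      InCl M e (Th S (k - P)) → InCl M e (Th S (k + P) ∪ (F ∩ Wl V k)) := by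
  intro l
  induction l with
  | nil => exact fun pre A hA _ => ⟨hA, subset_rfl, by simp⟩
  | cons a l ih =>
    intro pre A hA hpre
    classical
    have hhist : ∀ k, histLev (pre.map fun a => (a, V a)) A k = A ∩ Wl V k := by
      intro k
      ext x
      simp only [histLev, mem_filter, mem_inter, mem_Wl, List.mem_map, Prod.mk.injEq]
      constructor
      · rintro ⟨hx, v, ⟨b, -, rfl, rfl⟩, hv⟩
        exact ⟨hx, hv⟩
      · exact fun ⟨hx, hv⟩ => ⟨hx, V x, ⟨x, hpre x hx, rfl, rfl⟩, hv⟩
    have happ : (pre.map fun a => (a, V a)) ++ [(a, V a)]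
        = (pre ++ [a]).map fun a => (a, V a) := by simp
    simp only [run, happ]
    by_cases hc : shiftDec M P S j (pre.map fun a => (a, V a)) A a (V a) ∧
        M.Indep ((insert a A : Finset α) : Set α)
    · rw [if_pos hc]
      obtain ⟨k, hk, hact, hcl, hr⟩ := hc.1
      rw [hhist] at hr
      obtain ⟨g1, g2, g3⟩ := ih (pre ++ [a]) (insert a A) (hA.insert hk hact hcl hr)
        (fun x hx => by
          rcases mem_insert.1 hx with rfl | hx
          · simp
          · simp [hpre x hx])
      refine ⟨g1, (subset_insert _ _).trans g2, fun e he => ?_⟩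
      rcases List.mem_cons.1 he with rfl | he
      · exact fun i hi _ _ =>
          inCl_of_mem (mem_union_right _ (mem_inter.2 ⟨g2 (mem_insert_self _ _), mem_Wl.2 hi⟩))
      · exact g3 e he
    · rw [if_neg hc]
      obtain ⟨g1, g2, g3⟩ := ih (pre ++ [a]) A hA (fun x hx => by simp [hpre x hx])
      refine ⟨g1, g2, fun e he => ?_⟩
      rcases List.mem_cons.1 he with rfl | he
      · intro k hk hact hcl
        have hA2 := hA.2 k hact
        have hmono : InCl M e (Th S (k + P) ∪ (A ∩ Wl V k)) := by
          refine le_antisymm (not_lt.1 fun hlt => ?_) (rho_mono M (subset_insert _ _))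
          have hub := rho_submod M (Th S (k + P) ∪ (A ∩ Wl V k)) {e}
          rw [union_comm _ {e}, ← insert_eq] at hub
          have h1 : rho M ({e} : Finset α) ≤ 1 := (rho_le_card M _).trans_eq (card_singleton e)
          have hr : rho M (insert e (Th S (k + P) ∪ (A ∩ Wl V k)))
              = rho M (Th S (k + P)) + (A ∩ Wl V k).card + 1 := by omega
          exact hc ⟨⟨k, hk, hact, hcl, by rw [hhist]; exact hr⟩, (hA.insert hk hact hcl hr).indep⟩
        exact hmono.mono (union_subset_union subset_rfl (inter_subset_inter g2 subset_rfl))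
      · exact g3 e he

lemma cand_le (l : List α) (hl : ∀ e, e ∈ l) {k : ℤ} (hact : act P j k) :
    rho M (Cand M P S V k)
      ≤ (run M (shiftDec M P) S j V [] ∅ l ∩ Wl V k).card + rho M (Th S (k + P)) := by
  classical
  obtain ⟨g1, -, g3⟩ := run_spec (M := M) (P := P) (j := j) (S := S) (V := V) l [] ∅ Inv.empty
    (by simp)
  simp only [List.map_nil] at g1 g3
  set F := run M (shiftDec M P) S j V [] ∅ l
  have h := rho_union_eq M (X := Th S (k + P) ∪ (F ∩ Wl V k)) (Z := Cand M P S V k) fun e he => by
    simp only [Cand, mem_filter, mem_Wl] at he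
    exact g3 e (hl e) k he.1 hact he.2
  have := rho_mono M (subset_union_right :
    Cand M P S V k ⊆ Th S (k + P) ∪ (F ∩ Wl V k) ∪ Cand M P S V k)
  rw [h, g1.2 k hact] at this
  omega

open Classical in
lemma inner_le (M : Matroid α) (P : ℕ) (j : Fin (2 * P)) (S V : α → ℝ≥0) :
    ∑' k : ℤ, (if act P j k then (tw k : ℝ≥0∞) * rho M (Cand M P S V k) else 0)
      ≤ worst M (shiftDec M P) S j V
        + ∑' k : ℤ, (if act P j k then (tw k : ℝ≥0∞) * rho M (Th S (k + P)) else 0) := by
  rw [worst, ENNReal.iInf_add]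
  refine le_iInf fun l => ?_
  set F := run M (shiftDec M P) S j V [] ∅ l.1
  calc ∑' k : ℤ, (if act P j k then (tw k : ℝ≥0∞) * rho M (Cand M P S V k) else 0)
      ≤ ∑' k : ℤ, ((tw k : ℝ≥0∞) * (F ∩ Wl V k).card
          + if act P j k then (tw k : ℝ≥0∞) * rho M (Th S (k + P)) else 0) := by
        refine ENNReal.tsum_le_tsum fun k => ?_
        split_ifs with hact
        · rw [← mul_add]
          gcongr
          exact_mod_cast cand_le l.1 l.2.2 hact
        · exact zero_le
    _ ≤ _ := by
        rw [ENNReal.tsum_add]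
        refine add_le_add ?_ le_rfl
        calc ∑' k : ℤ, (tw k : ℝ≥0∞) * (F ∩ Wl V k).card
            = ∑' k : ℤ, ∑ e ∈ F, if inLev k (V e) then (tw k : ℝ≥0∞) else 0 := by
              refine tsum_congr fun k => ?_
              rw [← sum_filter, sum_const, nsmul_eq_mul, mul_comm]
              congr 3
              ext x
              simp [mem_Wl]
          _ = ∑ e ∈ F, ∑' k : ℤ, if inLev k (V e) then (tw k : ℝ≥0∞) else 0 :=
              Summable.tsum_finsetSum fun _ _ => ENNReal.summable
          _ ≤ ∑ e ∈ F, (V e : ℝ≥0∞) := by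
              refine sum_le_sum fun e _ => ?_
              by_cases h : ∃ k, inLev k (V e)
              · obtain ⟨k, hk⟩ := h
                rw [tsum_eq_single k fun i hi => if_neg fun h' => hi (inLev_unique h' hk),
                  if_pos hk]
                exact_mod_cast hk.1.le
              · push Not at h
                simp [h]

open Classical in
lemma geom_le (k : ℤ) :
    ∑' m : ℤ, (if m ≤ k then (tw m : ℝ≥0∞) else 0) = 2 * (tw k : ℝ≥0∞) := by
  have hinj : Function.Injective fun n : ℕ => k - (n : ℤ) := fun a b h => by simpa using h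
  rw [← hinj.tsum_eq (f := fun m : ℤ => if m ≤ k then (tw m : ℝ≥0∞) else 0)]
  · have : ∀ n : ℕ, (if k - (n : ℤ) ≤ k then (tw (k - n) : ℝ≥0∞) else 0)
        = (tw k : ℝ≥0∞) * (2⁻¹ : ℝ≥0∞) ^ n := by
      intro n
      rw [if_pos (by omega), sub_eq_add_neg, tw_add, ENNReal.coe_mul]
      congr 1
      rw [tw, zpow_neg, zpow_natCast, ENNReal.coe_inv (by simp), ENNReal.coe_pow, ENNReal.inv_pow]
      norm_num
    simp only [this, ENNReal.tsum_mul_left, ENNReal.tsum_geometric]
    rw [ENNReal.one_sub_inv_two, inv_inv, mul_comm]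
  · intro m hm
    simp only [Function.mem_support, ne_eq, ite_eq_right_iff, not_forall] at hm
    obtain ⟨hm, -⟩ := hm
    exact ⟨(k - m).toNat, by simp only; omega⟩

/-- An independent set meeting every threshold set in full rank. -/
lemma greedy_basis (M : Matroid α) (V : α → ℝ≥0) (s : Finset α) :
    ∃ I ⊆ s, M.Indep (I : Set α) ∧
      ∀ t : ℝ≥0, (I.filter fun e => t < V e).card = rho M (s.filter fun e => t < V e) := by
  induction s using Finset.induction_on_min_value V with
  | empty =>
    refine ⟨∅, subset_rfl, by simp, fun t => ?_⟩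
    simpa using (Nat.le_zero.1 ((rho_le_card M ∅).trans_eq card_empty)).symm
  | insert a s has hmin ih =>
    obtain ⟨I, hIs, hI, hIt⟩ := ih
    have haI : a ∉ I := fun h => has (hIs h)
    have hfull : ∀ t, t < V a → (insert a s).filter (fun e => t < V e) = insert a s ∧
        s.filter (fun e => t < V e) = s ∧ I.filter (fun e => t < V e) = I := by
      intro t ht
      refine ⟨filter_true_of_mem fun x hx => ?_, filter_true_of_mem fun x hx => ?_,
        filter_true_of_mem fun x hx => ht.trans_le (hmin x (hIs hx))⟩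
      · rcases mem_insert.1 hx with rfl | hx
        · exact ht
        · exact ht.trans_le (hmin x hx)
      · exact ht.trans_le (hmin x hx)
    have hrI : rho M I = I.card := (indep_iff_rho M I).1 hI
    by_cases hr : rho M (insert a I) = I.card + 1
    · refine ⟨insert a I, insert_subset_insert a hIs, ?_, fun t => ?_⟩
      · rw [indep_iff_rho, hr, card_insert_of_notMem haI]
      · by_cases ht : t < V a
        · obtain ⟨h1, h2, h3⟩ := hfull t ht
          rw [h1, filter_insert, if_pos ht, h3, card_insert_of_notMem haI]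
          have hIs' := hIt t
          rw [h2, h3] at hIs'
          have := rho_mono M (insert_subset_insert a hIs)
          have hsm := rho_submod M s {a}
          rw [union_comm, ← insert_eq] at hsm
          have := (rho_le_card M {a}).trans_eq (card_singleton a)
          omega
        · rw [filter_insert, if_neg ht, filter_insert, if_neg ht]
          exact hIt t
    · refine ⟨I, hIs.trans (subset_insert _ _), hI, fun t => ?_⟩
      by_cases ht : t < V a
      · obtain ⟨h1, h2, h3⟩ := hfull t ht
        have hIs' := hIt t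
        rw [h2, h3] at hIs'
        rw [h1, h3, hIs']
        have hcl : InCl M a I := by
          refine le_antisymm (not_lt.1 fun hlt => hr ?_) (rho_mono M (subset_insert _ _))
          have hsm := rho_submod M I {a}
          rw [union_comm, ← insert_eq] at hsm
          have := (rho_le_card M {a}).trans_eq (card_singleton a)
          omega
        exact (hcl.mono hIs).symm
      · rw [filter_insert, if_neg ht]
        exact hIt t

/-- Threshold ranks are at most twice the optimum. -/
lemma thr_le_opt (M : Matroid α) (V : α → ℝ≥0) :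
    ∑' m : ℤ, (tw m : ℝ≥0∞) * rho M (Th V m) ≤ 2 * opt M V := by
  classical
  obtain ⟨I, -, hI, hIt⟩ := greedy_basis M V univ
  calc ∑' m : ℤ, (tw m : ℝ≥0∞) * rho M (Th V m)
      = ∑' m : ℤ, ∑ e ∈ I, if tw m < V e then (tw m : ℝ≥0∞) else 0 := by
        refine tsum_congr fun m => ?_
        rw [← sum_filter, sum_const, nsmul_eq_mul, mul_comm, hIt (tw m)]
        rfl
    _ = ∑ e ∈ I, ∑' m : ℤ, if tw m < V e then (tw m : ℝ≥0∞) else 0 :=
        Summable.tsum_finsetSum fun _ _ => ENNReal.summable
    _ ≤ ∑ e ∈ I, 2 * (V e : ℝ≥0∞) := by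
        refine sum_le_sum fun e _ => ?_
        rcases eq_or_lt_of_le (show 0 ≤ V e from zero_le) with h0 | h0
        · simp [← h0]
        obtain ⟨k, hk⟩ := exists_inLev h0
        have : ∀ m, tw m < V e ↔ m ≤ k := by
          intro m
          refine ⟨fun h => ?_, fun h => (tw_le_iff.2 h).trans_lt hk.1⟩
          have := tw_lt_iff.1 (h.trans_le hk.2)
          omega
        simp only [this, geom_le]
        gcongr
        exact hk.1.le
    _ ≤ 2 * opt M V := by
        rw [← Finset.mul_sum]
        gcongr
        exact le_iSup₂_of_le I hI le_rfl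

/-- The optimum is at most twice the weighted level ranks. -/
lemma opt_le_levels (M : Matroid α) (V : α → ℝ≥0) :
    opt M V ≤ 2 * ∑' k : ℤ, (tw k : ℝ≥0∞) * rho M (Wl V k) := by
  classical
  refine iSup₂_le fun I hI => ?_
  calc ∑ e ∈ I, (V e : ℝ≥0∞)
      ≤ ∑ e ∈ I, ∑' k : ℤ, if inLev k (V e) then 2 * (tw k : ℝ≥0∞) else 0 := by
        refine sum_le_sum fun e _ => ?_
        rcases eq_or_lt_of_le (show 0 ≤ V e from zero_le) with h0 | h0
        · simp [← h0]
        obtain ⟨k, hk⟩ := exists_inLev h0
        rw [tsum_eq_single k fun i hi => if_neg fun h' => hi (inLev_unique h' hk), if_pos hk]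
        exact_mod_cast hk.2.trans_eq (tw_succ k)
    _ = ∑' k : ℤ, ∑ e ∈ I, if inLev k (V e) then 2 * (tw k : ℝ≥0∞) else 0 :=
        (Summable.tsum_finsetSum fun _ _ => ENNReal.summable).symm
    _ ≤ ∑' k : ℤ, 2 * ((tw k : ℝ≥0∞) * rho M (Wl V k)) := by
        refine ENNReal.tsum_le_tsum fun k => ?_
        rw [← sum_filter, sum_const, nsmul_eq_mul, mul_comm, mul_assoc]
        gcongr
        have h1 : M.Indep (((I.filter fun e => inLev k (V e)) : Finset α) : Set α) :=
          hI.subset (coe_subset.2 (filter_subset _ _))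
        rw [indep_iff_rho] at h1
        rw [← h1]
        exact rho_mono M fun x hx => mem_Wl.2 (mem_filter.1 hx).2
    _ = _ := ENNReal.tsum_mul_left

/-- The coloops of a set number at most its rank. -/
lemma coloops_le (M : Matroid α) (U C : Finset α) (hC : C ⊆ U)
    (h : ∀ e ∈ C, ¬ InCl M e (U.erase e)) : rho M (U \ C) + C.card ≤ rho M U := by
  induction C using Finset.induction_on with
  | empty => simp
  | insert a C ha ih =>
    have h1 := ih ((subset_insert _ _).trans hC) fun e he => h e (mem_insert_of_mem he)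
    have haU : a ∈ U := hC (mem_insert_self _ _)
    have h2 : rho M (U \ insert a C) < rho M (U \ C) := by
      have hins : insert a (U \ insert a C) = U \ C := by
        ext x
        simp only [mem_insert, mem_sdiff]
        grind
      rw [← hins]
      refine lt_of_le_of_ne (rho_mono M (subset_insert _ _)) fun heq => ?_
      exact h a (mem_insert_self _ _) (InCl.mono (X := U \ insert a C) heq.symm fun x hx => by
        simp only [mem_sdiff, mem_insert, mem_erase] at hx ⊢
        exact ⟨fun e => hx.2 (Or.inl e), hx.1⟩)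
    rw [card_insert_of_notMem ha]
    omega

end Vale.Agent.P331J
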