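import Vale.Agent.P331I.Main
import Vale.Agent.P331J.Rule

/-!
P331: expectations for the shifted-flat rule.
-/

namespace Vale.Agent.P331J

open MeasureTheory Finset Function Vale.Agent.P331I
open scoped ENNReal NNReal

variable {α : Type} [Fintype α] [DecidableEq α]

lemma measurableSet_inLev (k : ℤ) : MeasurableSet {v : ℝ≥0 | inLev k v} :=
  (measurableSet_Ioc : MeasurableSet (Set.Ioc (tw k) (tw (k + 1))))

/-- Anything read off two threshold sets and one level set is measurable. -/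
lemma meas3 {X β : Type*} [MeasurableSpace X] [MeasurableSpace β]
    (g : Finset α → Finset α → Finset α → β) {u w : X → α → ℝ≥0} (hu : Measurable u)
    (hw : Measurable w) (a b k : ℤ) :
    Measurable fun x => g (Th (u x) a) (Th (u x) b) (Wl (w x) k) := by
  classical
  let fs : (α → Bool) → Finset α := fun q => univ.filter fun f => q f = true
  let bT : ℤ → (α → ℝ≥0) → α → Bool := fun m W f => decide (tw m < W f)
  let bW : (α → ℝ≥0) → α → Bool := fun W f => decide (inLev k (W f))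
  have hT : ∀ m, Measurable (bT m) := fun m => measurable_pi_lambda _ fun f => measurable_to_bool (by
    simpa [bT, Set.preimage] using
      (measurableSet_lt measurable_const (measurable_pi_apply f)))
  have hW : Measurable bW := measurable_pi_lambda _ fun f => measurable_to_bool (by
    simpa [bW, Set.preimage] using (measurableSet_inLev k).preimage (measurable_pi_apply f))
  have e1 : ∀ m W, Th W m = fs (bT m W) := fun m W => by ext f; simp [fs, bT, mem_Th]
  have e2 : ∀ W, Wl W k = fs (bW W) := fun W => by ext f; simp [fs, bW, mem_Wl]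
  simp only [e1, e2]
  exact (measurable_of_countable fun q : (α → Bool) × (α → Bool) × (α → Bool) =>
    g (fs q.1) (fs q.2.1) (fs q.2.2)).comp
    (((hT a).comp hu).prodMk (((hT b).comp hu).prodMk (hW.comp hw)))

lemma measurableSet_shiftDec (M : Matroid α) (P : ℕ) (pre : List α) (A : Finset α) (e : α) :
    MeasurableSet {x : (α → ℝ≥0) × Fin (2 * P) × (α → ℝ≥0) |
      shiftDec M P x.1 x.2.1 (pre.map fun a => (a, x.2.2 a)) A e (x.2.2 e)} := by
  classical
  set A₀ := A.filter fun a => a ∈ pre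
  have hh : ∀ (V : α → ℝ≥0) k, histLev (pre.map fun a => (a, V a)) A k = A₀ ∩ Wl V k := by
    intro V k
    ext a
    simp only [histLev, A₀, mem_filter, mem_inter, mem_Wl, List.mem_map, Prod.mk.injEq]
    constructor
    · rintro ⟨ha, v, ⟨b, hb, rfl, rfl⟩, hv⟩
      exact ⟨⟨ha, hb⟩, hv⟩
    · exact fun ⟨⟨ha, hp⟩, hv⟩ => ⟨ha, V a, ⟨a, hp, rfl, rfl⟩, hv⟩
  have : {x : (α → ℝ≥0) × Fin (2 * P) × (α → ℝ≥0) |
      shiftDec M P x.1 x.2.1 (pre.map fun a => (a, x.2.2 a)) A e (x.2.2 e)}
      = ⋃ k : ℤ, ({x | inLev k (x.2.2 e)} ∩ {x | act P x.2.1 k}) ∩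
        (fun x => decide (InCl M e (Th x.1 (k - P)) ∧
          rho M (insert e (Th x.1 (k + P) ∪ (A₀ ∩ Wl x.2.2 k)))
            = rho M (Th x.1 (k + P)) + (A₀ ∩ Wl x.2.2 k).card + 1)) ⁻¹' {true} := by
    ext x
    simp only [shiftDec, hh, Set.mem_ofPred_eq, Set.mem_iUnion, Set.mem_inter_iff,
      Set.mem_preimage, Set.mem_singleton_iff, decide_eq_true_eq]
    exact exists_congr fun k => by tauto
  rw [this]
  refine MeasurableSet.iUnion fun k => MeasurableSet.inter (MeasurableSet.inter ?_ ?_) ?_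
  · exact (measurableSet_inLev k).preimage (by fun_prop :
      Measurable fun x : (α → ℝ≥0) × Fin (2 * P) × (α → ℝ≥0) => x.2.2 e)
  · exact (Set.toFinite {j : Fin (2 * P) | act P j k}).measurableSet.preimage (by fun_prop :
      Measurable fun x : (α → ℝ≥0) × Fin (2 * P) × (α → ℝ≥0) => x.2.1)
  · exact (meas3 (fun T U W => decide (InCl M e T ∧
      rho M (insert e (U ∪ (A₀ ∩ W))) = rho M U + (A₀ ∩ W).card + 1))
      measurable_fst (measurable_snd.comp measurable_snd) (k - P) (k + P) k)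
      (measurableSet_singleton true)

/-- The seed: a uniform residue. -/
noncomputable def seedμ (P : ℕ) : Measure (Fin (2 * P)) :=
  ((2 * P : ℕ) : ℝ≥0∞)⁻¹ • Measure.count

lemma seedμ_prob {P : ℕ} (hP : 0 < P) : IsProbabilityMeasure (seedμ P) := by
  constructor
  rw [seedμ, Measure.smul_apply, Measure.count_univ, ENat.card_eq_coe_fintype_card,
    Fintype.card_fin, smul_eq_mul]
  exact ENNReal.inv_mul_cancel (by simpa using hP.ne') (by simp [ENNReal.mul_eq_top])

open Classical in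
lemma lintegral_act {P : ℕ} (hP : 0 < P) (k : ℤ) (c : ℝ≥0∞) :
    ∫⁻ j, (if act P j k then c else 0) ∂seedμ P = ((2 * P : ℕ) : ℝ≥0∞)⁻¹ * c := by
  rw [seedμ, lintegral_smul_measure, lintegral_count, smul_eq_mul]
  congr 1
  have h0 := Int.emod_nonneg k (show ((2 * P : ℕ) : ℤ) ≠ 0 by omega)
  have h1 := Int.emod_lt_of_pos k (show (0 : ℤ) < ((2 * P : ℕ) : ℤ) by omega)
  obtain ⟨j0, hj0⟩ : ∃ j0 : Fin (2 * P), act P j0 k :=
    ⟨⟨(k % ((2 * P : ℕ) : ℤ)).toNat, by omega⟩, by unfold act; simp only; omega⟩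
  rw [tsum_eq_single j0 fun j hj => if_neg fun h => hj (Fin.ext (by unfold act at h hj0; omega)),
    if_pos hj0]

section exp

variable (M : Matroid α) (D : α → Measure ℝ≥0) [∀ e, IsProbabilityMeasure (D e)]

open Classical in
/-- `e` is not spanned by the other samples above `2^b`. -/
noncomputable def out (e : α) (b : ℤ) (S : α → ℝ≥0) : ℝ≥0∞ :=
  if InCl M e ((Th S b).erase e) then 0 else 1

lemma measurable_out (e : α) (b : ℤ) : Measurable (out M e b) := by
  classical
  exact meas3 (fun T _ _ => (if InCl M e (T.erase e) then (0 : ℝ≥0∞) else 1))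
    measurable_id measurable_id b b 0

/-- The probability of that. -/
noncomputable def qout (e : α) (b : ℤ) : ℝ≥0∞ := ∫⁻ S, out M e b S ∂Measure.pi D

omit [∀ e, IsProbabilityMeasure (D e)] in
lemma qout_mono (e : α) {b b' : ℤ} (h : b ≤ b') : qout M D e b ≤ qout M D e b' := by
  classical
  refine lintegral_mono fun S => ?_
  unfold out
  split_ifs with h1 h2 h2
  · exact le_rfl
  · exact zero_le
  · exact absurd (h2.mono (erase_subset_erase _ (Th_anti S h))) h1
  · exact le_rfl

lemma out_update (e : α) (b : ℤ) (S : α → ℝ≥0) (y : ℝ≥0) :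
    out M e b (update S e y) = out M e b S := by
  have : (Th (update S e y) b).erase e = (Th S b).erase e := by
    ext f
    by_cases hf : f = e
    · simp [hf]
    · simp [mem_Th, update_of_ne hf, hf]
  unfold out
  rw [this]

lemma coloop_bound (m : ℤ) :
    ∑ e, D e (Set.Ioi (tw m)) * qout M D e m ≤ ∫⁻ S, (rho M (Th S m) : ℝ≥0∞) ∂Measure.pi D := by
  classical
  set φ : ℝ≥0 → ℝ≥0∞ := (Set.Ioi (tw m)).indicator fun _ => 1
  have hφ : Measurable φ := measurable_const.indicator measurableSet_Ioi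
  have h1 : ∀ e, D e (Set.Ioi (tw m)) * qout M D e m
      = ∫⁻ S, out M e m S * φ (S e) ∂Measure.pi D := by
    intro e
    rw [lintegral_mul_eval D e hφ (measurable_out M e m) fun S y => out_update M e m S y,
      lintegral_indicator_const measurableSet_Ioi, one_mul]
    rfl
  simp only [h1]
  have hm : ∀ e : α, Measurable fun S : α → ℝ≥0 => out M e m S * φ (S e) :=
    fun e => (measurable_out M e m).mul (hφ.comp (measurable_pi_apply e))
  rw [← lintegral_finsetSum _ fun e _ => hm e]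
  refine lintegral_mono fun S => ?_
  set C := (Th S m).filter fun e => ¬ InCl M e ((Th S m).erase e)
  have hC := coloops_le M (Th S m) C (filter_subset _ _) fun e he => (mem_filter.1 he).2
  calc ∑ e, out M e m S * φ (S e) ≤ ∑ e, if e ∈ C then (1 : ℝ≥0∞) else 0 := by
        refine sum_le_sum fun e _ => ?_
        by_cases hS : S e ∈ Set.Ioi (tw m)
        · by_cases hcl : InCl M e ((Th S m).erase e)
          · simp [out, hcl]
          · rw [if_pos (mem_filter.2 ⟨mem_Th.2 hS, hcl⟩)]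
            simp [out, hcl, φ, hS]
        · simp [φ, hS]
    _ = (C.card : ℝ≥0∞) := by simp
    _ ≤ _ := by exact_mod_cast (show C.card ≤ rho M (Th S m) by omega)

lemma leak_prob (e : α) (b : ℤ) :
    Measure.pi D {S | ¬ InCl M e (Th S b)} ≤ D e (Set.Iic (tw b)) * qout M D e b := by
  classical
  set φ : ℝ≥0 → ℝ≥0∞ := (Set.Iic (tw b)).indicator fun _ => 1
  have hφ : Measurable φ := measurable_const.indicator measurableSet_Iic
  have hmeas : MeasurableSet {S | ¬ InCl M e (Th S b)} := by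
    have := (meas3 (fun T _ _ => decide (InCl M e T)) measurable_id measurable_id b b 0)
      (measurableSet_singleton false)
    simpa [Set.preimage] using this
  calc Measure.pi D {S | ¬ InCl M e (Th S b)}
      = ∫⁻ S, {S | ¬ InCl M e (Th S b)}.indicator (fun _ => 1) S ∂Measure.pi D := by
        rw [lintegral_indicator_const hmeas, one_mul]
    _ ≤ ∫⁻ S, out M e b S * φ (S e) ∂Measure.pi D := by
        refine lintegral_mono fun S => ?_
        by_cases h : InCl M e (Th S b)
        · simp [h]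
        · have h1 : S e ∈ Set.Iic (tw b) :=
            not_lt.1 fun hlt => h (inCl_of_mem (mem_Th.2 hlt))
          have h2 : ¬ InCl M e ((Th S b).erase e) := fun h2 => h (h2.mono (erase_subset _ _))
          simp [h, out, h2, φ, h1]
    _ = _ := by
        rw [lintegral_mul_eval D e hφ (measurable_out M e b) fun S y => out_update M e b S y,
          lintegral_indicator_const measurableSet_Iic, one_mul]
        rfl

/-- The element's sample often reaches down to level `k`. -/
def Hv (N : ℕ) (P : ℕ) (k : ℤ) (e : α) : Prop :=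
  1 ≤ (N : ℝ≥0∞) * D e (Set.Ioi (tw (k - P)))

open Classical in
/-- The other elements of level `k` left unprotected. -/
noncomputable def leak (N P : ℕ) (k : ℤ) (S V : α → ℝ≥0) : ℝ≥0∞ :=
  ∑ e ∈ univ.filter (fun e => ¬ Hv D N P k e),
    {v | inLev k v}.indicator (fun _ => (1 : ℝ≥0∞)) (V e) *
      {S | ¬ InCl M e (Th S (k - P))}.indicator (fun _ => (1 : ℝ≥0∞)) S

lemma heavy_bound (N P : ℕ) (k : ℤ) (V : α → ℝ≥0) (X : Finset α) (hX : X ⊆ Wl V k)
    (hH : ∀ e ∈ X, Hv D N P k e) :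
    (rho M X : ℝ≥0∞) ≤ N * ∫⁻ S, (rho M (Cand M P S V k) : ℝ≥0∞) ∂Measure.pi D := by
  classical
  obtain ⟨I, hIX, hI, hIt⟩ := greedy_basis M V X
  have hpos : ∀ x ∈ X, 0 < V x := fun x hx =>
    lt_of_le_of_lt zero_le (mem_Wl.1 (hX hx)).1
  have hcard : I.card = rho M X := by
    have := hIt 0
    rwa [filter_true_of_mem fun x hx => hpos x (hIX hx), filter_true_of_mem hpos] at this
  calc (rho M X : ℝ≥0∞) = ∑ _e ∈ I, (1 : ℝ≥0∞) := by simp [hcard]
    _ ≤ ∑ e ∈ I, (N : ℝ≥0∞) * D e (Set.Ioi (tw (k - P))) :=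
        sum_le_sum fun e he => hH e (hIX he)
    _ = (N : ℝ≥0∞) * ∫⁻ S, ∑ e ∈ I,
          (Set.Ioi (tw (k - P))).indicator (fun _ => (1 : ℝ≥0∞)) (S e) ∂Measure.pi D := by
        rw [← Finset.mul_sum, lintegral_finsetSum _ fun e _ => (measurable_const.indicator
          measurableSet_Ioi).fun_comp (measurable_pi_apply e)]
        congr 1
        refine sum_congr rfl fun e _ => ?_
        rw [(measurePreserving_eval D e).lintegral_comp (measurable_const.indicator
          measurableSet_Ioi), lintegral_indicator_const measurableSet_Ioi, one_mul]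
    _ ≤ _ := by
        gcongr with S
        simp only [Set.indicator_apply, Set.mem_Ioi]
        rw [← sum_filter, sum_const, nsmul_eq_mul, mul_one]
        have h1 : M.Indep (((I.filter fun e => tw (k - P) < S e) : Finset α) : Set α) :=
          hI.subset (coe_subset.2 (filter_subset _ _))
        rw [indep_iff_rho] at h1
        rw [← h1]
        exact_mod_cast rho_mono M fun x hx => by
          rw [mem_filter] at hx
          exact mem_filter.2 ⟨hX (hIX hx.1), inCl_of_mem (mem_Th.2 hx.2)⟩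

lemma split_level (N P : ℕ) (k : ℤ) (V : α → ℝ≥0) :
    (rho M (Wl V k) : ℝ≥0∞) ≤ ((N : ℝ≥0∞) + 1) *
        ∫⁻ S, (rho M (Cand M P S V k) : ℝ≥0∞) ∂Measure.pi D
      + ∫⁻ S, leak M D N P k S V ∂Measure.pi D := by
  classical
  set H := (Wl V k).filter fun e => Hv D N P k e
  set L := (Wl V k).filter fun e => ¬ Hv D N P k e
  have hsplit : rho M (Wl V k) ≤ rho M H + rho M L := by
    have := rho_submod M H L
    rw [filter_union_filter_not_eq] at this
    omega
  have hL : ∀ S, (rho M L : ℝ≥0∞) ≤ rho M (Cand M P S V k) + leak M D N P k S V := by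
    intro S
    set B := L.filter fun e => ¬ InCl M e (Th S (k - P))
    have h1 : rho M L ≤ rho M (Cand M P S V k) + B.card := by
      have hsub : L ⊆ Cand M P S V k ∪ B := by
        intro e he
        by_cases h : InCl M e (Th S (k - P))
        · exact mem_union_left _ (mem_filter.2 ⟨(mem_filter.1 he).1, h⟩)
        · exact mem_union_right _ (mem_filter.2 ⟨he, h⟩)
      have := rho_mono M hsub
      have := rho_submod M (Cand M P S V k) B
      have := rho_le_card M B
      omega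
    have h2 : (B.card : ℝ≥0∞) ≤ leak M D N P k S V := by
      calc (B.card : ℝ≥0∞) = ∑ e ∈ B,
            {v | inLev k v}.indicator (fun _ => (1 : ℝ≥0∞)) (V e) *
              {S | ¬ InCl M e (Th S (k - P))}.indicator (fun _ => (1 : ℝ≥0∞)) S := by
            rw [card_eq_sum_ones, Nat.cast_sum]
            refine sum_congr rfl fun e he => ?_
            simp only [B, L, mem_filter, mem_Wl] at he
            simp [he.1.1, he.2]
        _ ≤ _ := sum_le_sum_of_subset fun e he => by
            simp only [B, L, mem_filter] at he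
            simp [he.1.2]
    calc (rho M L : ℝ≥0∞) ≤ ((rho M (Cand M P S V k) + B.card : ℕ) : ℝ≥0∞) := by exact_mod_cast h1
      _ ≤ _ := by push_cast; gcongr
  have hH := heavy_bound M D N P k V H (filter_subset _ _) fun e he => (mem_filter.1 he).2
  have hm : Measurable fun S => (rho M (Cand M P S V k) : ℝ≥0∞) :=
    meas3 (fun T _ W => (rho M (W.filter fun e => InCl M e T) : ℝ≥0∞))
      measurable_id measurable_const (k - P) (k - P) k
  calc (rho M (Wl V k) : ℝ≥0∞) ≤ (rho M H : ℝ≥0∞) + rho M L := by exact_mod_cast hsplit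
    _ ≤ N * ∫⁻ S, (rho M (Cand M P S V k) : ℝ≥0∞) ∂Measure.pi D
        + ∫⁻ S, ((rho M (Cand M P S V k) : ℝ≥0∞) + leak M D N P k S V) ∂Measure.pi D := by
        refine add_le_add hH (le_trans (le_of_eq ?_) (lintegral_mono hL))
        rw [lintegral_const, measure_univ, mul_one]
    _ = _ := by
        rw [lintegral_add_left hm, add_mul, one_mul, add_assoc]

lemma real_Iic (e : α) (t : ℝ≥0) :
    (D e (Set.Iic t)).toReal = 1 - (D e (Set.Ioi t)).toReal := by
  rw [← Set.compl_Ioi, prob_compl_eq_one_sub measurableSet_Ioi,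
    ENNReal.toReal_sub_of_le prob_le_one ENNReal.one_ne_top, ENNReal.toReal_one]

/-- The tail hypothesis. -/
def NoJump (N P : ℕ) (ε : ℝ≥0) (D : Measure ℝ≥0) : Prop :=
  ∀ t : ℝ≥0, 0 < t → 1 ≤ (N : ℝ) * D.real (Set.Ioi t) ∨
    ∃ l : ℝ≥0, 1 ≤ l ∧ l ≤ 2 ^ P ∧
      2 ^ P * D.real (Set.Ioi (2 ^ P * t)) * (1 - D.real (Set.Ioi t))
        ≤ ε * l * D.real (Set.Ioi (l * t))

lemma choose_m {N P : ℕ} {ε : ℝ≥0} {e : α} (h : NoJump N P ε (D e)) {k : ℤ}
    (hk : ¬ Hv D N P k e) :
    ∃ i ∈ range (P + 1), (tw k : ℝ≥0∞) * D e (Set.Ioi (tw k)) * D e (Set.Iic (tw (k - P)))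
      ≤ 2 * (ε : ℝ≥0∞) * ((tw (k - P + (i : ℕ)) : ℝ≥0∞) *
          D e (Set.Ioi (tw (k - P + (i : ℕ))))) := by
  set t := tw (k - P) with ht
  have hkt : 2 ^ P * t = tw k := by
    rw [ht, ← tw_natCast, ← tw_add]; congr 1; ring
  rcases h t (tw_pos _) with h | ⟨l, hl1, hl2, hl⟩
  · refine absurd ?_ hk
    unfold Hv
    rw [← ENNReal.toReal_le_toReal ENNReal.one_ne_top
      (ENNReal.mul_ne_top (ENNReal.natCast_ne_top N) (measure_ne_top _ _))]
    simpa [measureReal_def] using h
  obtain ⟨n, hn1, hn2⟩ := exists_mem_Ico_zpow (x := l * t) (y := (2 : ℝ≥0))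
    (mul_pos (lt_of_lt_of_le one_pos hl1) (tw_pos _)) (by norm_num)
  change tw n ≤ l * t at hn1
  change l * t < tw (n + 1) at hn2
  have hlo : k - P ≤ n := by
    have := tw_lt_iff.1 ((le_mul_of_one_le_left zero_le hl1).trans_lt hn2)
    omega
  have hhi : n ≤ k := tw_le_iff.1 (hn1.trans (hkt ▸ mul_le_mul' hl2 le_rfl))
  refine ⟨(n - (k - P)).toNat, mem_range.2 (by omega), ?_⟩
  rw [show k - P + (((n - (k - P)).toNat : ℕ) : ℤ) = n by omega]
  refine (ENNReal.toReal_le_toReal (by finiteness) (by finiteness)).1 ?_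
  simp only [ENNReal.toReal_mul, ENNReal.coe_toReal, real_Iic, ENNReal.toReal_ofNat]
  simp only [measureReal_def, hkt] at hl
  have hanti : (D e (Set.Ioi (l * t))).toReal ≤ (D e (Set.Ioi (tw n))).toReal :=
    ENNReal.toReal_mono (measure_ne_top _ _) (measure_mono (Set.Ioi_subset_Ioi hn1))
  have hlt : (l : ℝ) * t ≤ 2 * tw n := by
    have := hn2.le
    rw [tw_succ] at this
    exact_mod_cast this
  have hk2 : (tw k : ℝ) = 2 ^ P * t := by rw [← hkt]; push_cast; ring
  rw [hk2]
  calc (2 : ℝ) ^ P * t * (D e (Set.Ioi (tw k))).toReal * (1 - (D e (Set.Ioi t)).toReal)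
      = t * (2 ^ P * (D e (Set.Ioi (tw k))).toReal * (1 - (D e (Set.Ioi t)).toReal)) := by ring
    _ ≤ t * (ε * l * (D e (Set.Ioi (l * t))).toReal) := mul_le_mul_of_nonneg_left hl t.2
    _ = ε * (((l : ℝ) * t) * (D e (Set.Ioi (l * t))).toReal) := by ring
    _ ≤ ε * ((2 * tw n) * (D e (Set.Ioi (tw n))).toReal) := by
        refine mul_le_mul_of_nonneg_left (mul_le_mul hlt hanti ENNReal.toReal_nonneg ?_) ε.2
        positivity
    _ = _ := by ring

lemma leak_bound {N P : ℕ} {ε : ℝ≥0} (hD : ∀ e, NoJump N P ε (D e)) (k : ℤ) :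
    (tw k : ℝ≥0∞) * ∫⁻ V, ∫⁻ S, leak M D N P k S V ∂Measure.pi D ∂Measure.pi D
      ≤ 2 * (ε : ℝ≥0∞) * ∑ i ∈ range (P + 1), (tw (k - P + (i : ℕ)) : ℝ≥0∞) *
          ∫⁻ S, (rho M (Th S (k - P + (i : ℕ))) : ℝ≥0∞) ∂Measure.pi D := by
  classical
  have hm1 : ∀ e, Measurable fun V : α → ℝ≥0 =>
      {v | inLev k v}.indicator (fun _ => (1 : ℝ≥0∞)) (V e) :=
    fun e => (measurable_const.indicator (measurableSet_inLev k)).fun_comp (measurable_pi_apply e)
  have hm2 : ∀ e, MeasurableSet {S : α → ℝ≥0 | ¬ InCl M e (Th S (k - P))} := by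
    intro e
    have := (meas3 (fun T _ _ => decide (InCl M e T)) measurable_id measurable_id (k - P) k 0)
      (measurableSet_singleton false)
    simpa [Set.preimage] using this
  set Q := univ.filter fun e => ¬ Hv D N P k e
  have hint : ∫⁻ V, ∫⁻ S, leak M D N P k S V ∂Measure.pi D ∂Measure.pi D
      = ∑ e ∈ Q, D e {v | inLev k v} * Measure.pi D {S | ¬ InCl M e (Th S (k - P))} := by
    have hin : ∀ V, ∫⁻ S, leak M D N P k S V ∂Measure.pi D = ∑ e ∈ Q,
        {v | inLev k v}.indicator (fun _ => (1 : ℝ≥0∞)) (V e) *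
          Measure.pi D {S | ¬ InCl M e (Th S (k - P))} := by
      intro V
      unfold leak
      rw [lintegral_finsetSum _ fun e _ =>
        (measurable_const.indicator (hm2 e)).const_mul _]
      refine sum_congr rfl fun e _ => ?_
      rw [lintegral_const_mul _ (measurable_const.indicator (hm2 e)),
        lintegral_indicator_const (hm2 e), one_mul]
    simp only [hin]
    rw [lintegral_finsetSum _ fun e _ => (hm1 e).mul_const _]
    refine sum_congr rfl fun e _ => ?_
    rw [lintegral_mul_const _ (hm1 e), (measurePreserving_eval D e).lintegral_comp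
      (measurable_const.indicator (measurableSet_inLev k)),
      lintegral_indicator_const (measurableSet_inLev k), one_mul]
  rw [hint, Finset.mul_sum, Finset.mul_sum]
  calc ∑ e ∈ Q, (tw k : ℝ≥0∞) *
        (D e {v | inLev k v} * Measure.pi D {S | ¬ InCl M e (Th S (k - P))})
      ≤ ∑ e ∈ Q, ∑ i ∈ range (P + 1), 2 * (ε : ℝ≥0∞) * ((tw (k - P + (i : ℕ)) : ℝ≥0∞) *
          (D e (Set.Ioi (tw (k - P + (i : ℕ)))) * qout M D e (k - P + (i : ℕ)))) := by
        refine sum_le_sum fun e he => ?_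
        obtain ⟨i, hi, hle⟩ := choose_m D (hD e) (mem_filter.1 he).2
        refine le_trans ?_ (single_le_sum (fun _ _ => zero_le) hi)
        calc (tw k : ℝ≥0∞) * (D e {v | inLev k v} * Measure.pi D {S | ¬ InCl M e (Th S (k - P))})
            ≤ (tw k : ℝ≥0∞) * (D e (Set.Ioi (tw k)) *
                (D e (Set.Iic (tw (k - P))) * qout M D e (k - P + (i : ℕ)))) := by
              refine mul_le_mul' le_rfl (mul_le_mul' (measure_mono fun v hv => hv.1) ?_)
              exact (leak_prob M D e _).trans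
                (mul_le_mul' le_rfl (qout_mono M D e (by omega)))
          _ = (tw k : ℝ≥0∞) * D e (Set.Ioi (tw k)) * D e (Set.Iic (tw (k - P))) *
                qout M D e (k - P + (i : ℕ)) := by ring
          _ ≤ _ := mul_le_mul' hle le_rfl
          _ = _ := by ring
    _ ≤ ∑ e, ∑ i ∈ range (P + 1), 2 * (ε : ℝ≥0∞) * ((tw (k - P + (i : ℕ)) : ℝ≥0∞) *
          (D e (Set.Ioi (tw (k - P + (i : ℕ)))) * qout M D e (k - P + (i : ℕ)))) :=
        sum_le_sum_of_subset (subset_univ _)
    _ ≤ _ := by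
        rw [sum_comm]
        refine sum_le_sum fun i _ => ?_
        rw [← Finset.mul_sum, ← Finset.mul_sum]
        gcongr
        exact coloop_bound M D _

open Classical in
lemma avg_act {P : ℕ} (hP : 0 < P) (g : ℤ → (α → ℝ≥0) → (α → ℝ≥0) → ℝ≥0∞)
    (hg : ∀ k, Measurable fun p : (α → ℝ≥0) × (α → ℝ≥0) => g k p.1 p.2) :
    ∫⁻ x : (α → ℝ≥0) × (α → ℝ≥0) × Fin (2 * P),
        ∑' k : ℤ, (if act P x.2.2 k then g k x.1 x.2.1 else 0)
        ∂(Measure.pi D).prod ((Measure.pi D).prod (seedμ P))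
      = ((2 * P : ℕ) : ℝ≥0∞)⁻¹ *
          ∑' k : ℤ, ∫⁻ S, ∫⁻ V, g k S V ∂Measure.pi D ∂Measure.pi D := by
  haveI := seedμ_prob hP
  have hm : ∀ k, Measurable fun x : (α → ℝ≥0) × (α → ℝ≥0) × Fin (2 * P) =>
      if act P x.2.2 k then g k x.1 x.2.1 else 0 := fun k =>
    Measurable.ite ((Set.toFinite {j : Fin (2 * P) | act P j k}).measurableSet.preimage
      (measurable_snd.comp measurable_snd)) ((hg k).comp (measurable_fst.prodMk (measurable_fst.comp measurable_snd))) measurable_const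
  rw [lintegral_tsum fun k => (hm k).aemeasurable, ← ENNReal.tsum_mul_left]
  refine tsum_congr fun k => ?_
  rw [lintegral_prod _ (hm k).aemeasurable]
  have hin : ∀ S : α → ℝ≥0, ∫⁻ y : (α → ℝ≥0) × Fin (2 * P),
      (if act P y.2 k then g k S y.1 else 0) ∂(Measure.pi D).prod (seedμ P)
      = ((2 * P : ℕ) : ℝ≥0∞)⁻¹ * ∫⁻ V, g k S V ∂Measure.pi D := by
    intro S
    have hs : Measurable fun y : (α → ℝ≥0) × Fin (2 * P) =>
        if act P y.2 k then g k S y.1 else 0 := (hm k).comp (measurable_prodMk_left (x := S))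
    rw [lintegral_prod _ hs.aemeasurable,
      ← lintegral_const_mul' _ _ (ENNReal.inv_ne_top.2 (by simpa using hP.ne'))]
    exact lintegral_congr fun V => lintegral_act hP k (g k S V)
  simp only [hin]
  exact lintegral_const_mul' _ _ (ENNReal.inv_ne_top.2 (by simpa using hP.ne'))

/-- The master bound. -/
theorem master (P N : ℕ) (ε : ℝ≥0) (hP : 0 < P)
    (hnum : 8 * ((N : ℝ) + 1) + 16 * ε * (P + 1) * 2 ^ P ≤ 2 ^ P)
    (hD : ∀ e, NoJump N P ε (D e)) (hfin : ∫⁻ V, opt M V ∂Measure.pi D ≠ ⊤) :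
    ∫⁻ V, opt M V ∂Measure.pi D
      ≤ ((8 * P * (N + 1) : ℕ) : ℝ≥0∞) *
        ∫⁻ x, worst M (shiftDec M P) x.1 x.2.2 x.2.1
          ∂(Measure.pi D).prod ((Measure.pi D).prod (seedμ P)) := by
  classical
  haveI := seedμ_prob hP
  set μ := Measure.pi D with hμ
  set ν := μ.prod (μ.prod (seedμ P))
  set O := ∫⁻ V, opt M V ∂μ
  set A := ∫⁻ x, worst M (shiftDec M P) x.1 x.2.2 x.2.1 ∂ν
  set R : ℤ → ℝ≥0∞ := fun m => (tw m : ℝ≥0∞) * ∫⁻ S, (rho M (Th S m) : ℝ≥0∞) ∂μ with hR
  set W : ℤ → ℝ≥0∞ := fun k => (tw k : ℝ≥0∞) * ∫⁻ V, (rho M (Wl V k) : ℝ≥0∞) ∂μ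
  set C : ℤ → ℝ≥0∞ := fun k => (tw k : ℝ≥0∞) *
    ∫⁻ S, ∫⁻ V, (rho M (Cand M P S V k) : ℝ≥0∞) ∂μ ∂μ
  set L : ℤ → ℝ≥0∞ := fun k => (tw k : ℝ≥0∞) * ∫⁻ V, ∫⁻ S, leak M D N P k S V ∂μ ∂μ
  have mT : ∀ m, Measurable fun S => (rho M (Th S m) : ℝ≥0∞) := fun m =>
    meas3 (fun T _ _ => (rho M T : ℝ≥0∞)) measurable_id measurable_id m m 0
  have mW : ∀ k, Measurable fun V => (rho M (Wl V k) : ℝ≥0∞) := fun k =>
    meas3 (fun _ _ U => (rho M U : ℝ≥0∞)) measurable_id measurable_id 0 0 k
  have mC : ∀ k, Measurable fun p : (α → ℝ≥0) × (α → ℝ≥0) =>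
      (rho M (Cand M P p.1 p.2 k) : ℝ≥0∞) := fun k =>
    meas3 (fun T _ U => (rho M (U.filter fun e => InCl M e T) : ℝ≥0∞))
      measurable_fst measurable_snd (k - P) (k - P) k
  have hT : ∑' m, R m ≤ 2 * O := by
    simp only [hR, ← lintegral_const_mul _ (mT _)]
    rw [← lintegral_tsum fun m => ((mT m).const_mul _).aemeasurable,
      ← lintegral_const_mul' _ _ (by norm_num)]
    exact lintegral_mono fun S => thr_le_opt M S
  have hO : O ≤ 2 * ∑' k, W k := by
    simp only [W, ← lintegral_const_mul _ (mW _)]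
    rw [← lintegral_tsum fun m => ((mW m).const_mul _).aemeasurable,
      ← lintegral_const_mul' _ _ (by norm_num)]
    exact lintegral_mono fun V => opt_le_levels M V
  have hW : ∀ k, W k ≤ ((N : ℝ≥0∞) + 1) * C k + L k := by
    intro k
    simp only [W, C, L]
    rw [mul_left_comm, ← mul_add]
    gcongr
    refine (lintegral_mono fun V => split_level M D N P k V).trans ?_
    rw [lintegral_add_left ((mC k).lintegral_prod_left'.const_mul _),
      lintegral_const_mul _ (mC k).lintegral_prod_left', lintegral_lintegral_swap (μ := μ) (ν := μ)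
        (f := fun S V => (rho M (Cand M P S V k) : ℝ≥0∞)) (mC k).aemeasurable]
  have hshift : ∀ c : ℤ, ∑' k : ℤ, R (k + c) = ∑' m, R m := fun c =>
    (Equiv.addRight c).tsum_eq R
  have hL : ∑' k, L k ≤ 2 * (ε : ℝ≥0∞) * ((P + 1 : ℕ) * (2 * O)) := by
    refine (ENNReal.tsum_le_tsum fun k => leak_bound M D hD k).trans ?_
    rw [ENNReal.tsum_mul_left, Summable.tsum_finsetSum fun _ _ => ENNReal.summable]
    gcongr
    calc ∑ i ∈ range (P + 1), ∑' k : ℤ, R (k - P + (i : ℕ))
        = ∑ i ∈ range (P + 1), ∑' m, R m := sum_congr rfl fun i _ => by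
          rw [← hshift ((i : ℤ) - P)]
          exact tsum_congr fun k => by congr 1; ring
      _ = (P + 1 : ℕ) * ∑' m, R m := by rw [sum_const, card_range, nsmul_eq_mul]
      _ ≤ _ := mul_le_mul' le_rfl hT
  have hC : ∑' k, C k ≤ ((2 * P : ℕ) : ℝ≥0∞) * A + (tw (-P) : ℝ≥0∞) * (2 * O) := by
    have hg1 : ∀ k, Measurable fun p : (α → ℝ≥0) × (α → ℝ≥0) =>
        (tw k : ℝ≥0∞) * (rho M (Cand M P p.1 p.2 k) : ℝ≥0∞) := fun k => (mC k).const_mul _
    have hg2 : ∀ k : ℤ, Measurable fun p : (α → ℝ≥0) × (α → ℝ≥0) =>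
        (tw k : ℝ≥0∞) * (rho M (Th p.1 (k + P)) : ℝ≥0∞) := fun k =>
      ((mT _).comp measurable_fst).const_mul _
    have e1 := avg_act D hP (fun k S V => (tw k : ℝ≥0∞) * rho M (Cand M P S V k)) hg1
    have e2 := avg_act D hP (fun k S _ => (tw k : ℝ≥0∞) * rho M (Th S (k + P))) hg2
    have hm2 : Measurable fun x : (α → ℝ≥0) × (α → ℝ≥0) × Fin (2 * P) =>
        ∑' k : ℤ, (if act P x.2.2 k then (tw k : ℝ≥0∞) * rho M (Th x.1 (k + P)) else 0) :=
      Measurable.ennreal_tsum fun k => Measurable.ite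
        ((Set.toFinite {j : Fin (2 * P) | act P j k}).measurableSet.preimage
          (measurable_snd.comp measurable_snd))
        (((mT _).comp measurable_fst).const_mul _) measurable_const
    have h := lintegral_mono (μ := ν) fun x : (α → ℝ≥0) × (α → ℝ≥0) × Fin (2 * P) =>
      inner_le M P x.2.2 x.1 x.2.1
    rw [lintegral_add_right _ hm2, e1, e2] at h
    have hc : ∀ k, ∫⁻ S, ∫⁻ V, (tw k : ℝ≥0∞) * rho M (Cand M P S V k) ∂μ ∂μ = C k := by
      intro k
      simp only [C]
      rw [← lintegral_const_mul' _ _ ENNReal.coe_ne_top]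
      exact lintegral_congr fun S => lintegral_const_mul' _ _ ENNReal.coe_ne_top
    have hu : ∀ k : ℤ, ∫⁻ S, ∫⁻ _V, (tw k : ℝ≥0∞) * rho M (Th S (k + P)) ∂μ ∂μ
        = (tw (-P) : ℝ≥0∞) * R (k + P) := by
      intro k
      simp only [lintegral_const, measure_univ, mul_one, hR, ← mul_assoc, ← ENNReal.coe_mul,
        ← tw_add, neg_add_cancel_left, add_comm k, lintegral_const_mul' _ _ ENNReal.coe_ne_top]
    simp only [← hμ, hc, hu] at h
    rw [ENNReal.tsum_mul_left, hshift] at h
    have h2P : ((2 * P : ℕ) : ℝ≥0∞) ≠ 0 := by simpa using hP.ne'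
    have h' := mul_le_mul' (le_refl ((2 * P : ℕ) : ℝ≥0∞)) h
    rw [mul_add, ← mul_assoc, ← mul_assoc, ENNReal.mul_inv_cancel h2P (ENNReal.natCast_ne_top _),
      one_mul, one_mul] at h'
    exact h'.trans (add_le_add le_rfl (mul_le_mul' le_rfl hT))
  have hmain : O ≤ 2 * (((N : ℝ≥0∞) + 1) * (((2 * P : ℕ) : ℝ≥0∞) * A + (tw (-P) : ℝ≥0∞) * (2 * O))
      + 2 * (ε : ℝ≥0∞) * ((P + 1 : ℕ) * (2 * O))) := by
    refine hO.trans (mul_le_mul' le_rfl ((ENNReal.tsum_le_tsum hW).trans ?_))
    rw [ENNReal.tsum_add, ENNReal.tsum_mul_left]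
    exact add_le_add (mul_le_mul' le_rfl hC) hL
  rcases eq_or_ne A ⊤ with hA | hA
  · rw [hA, ENNReal.mul_top (by simp [hP.ne'])]
    exact le_top
  rw [← ENNReal.toReal_le_toReal hfin (ENNReal.mul_ne_top (ENNReal.natCast_ne_top _) hA)]
  have hr := ENNReal.toReal_mono (by finiteness) hmain
  simp only [ENNReal.toReal_mul, ENNReal.toReal_add, ENNReal.toReal_natCast, ENNReal.toReal_ofNat,
    ENNReal.coe_toReal, ENNReal.toReal_one, ne_eq, ENNReal.natCast_ne_top, not_false_eq_true,
    ENNReal.mul_eq_top, ENNReal.add_eq_top, hA, hfin, ENNReal.coe_ne_top, ENNReal.one_ne_top,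
    ENNReal.ofNat_ne_top, and_false, false_and, or_self] at hr
  push_cast at hr ⊢
  rw [tw, NNReal.coe_zpow, zpow_neg, zpow_natCast] at hr
  push_cast at hr
  simp only [ENNReal.toReal_mul, ENNReal.toReal_natCast, ENNReal.toReal_ofNat, ENNReal.toReal_add,
    ne_eq, ENNReal.natCast_ne_top, not_false_eq_true, ENNReal.one_ne_top, ENNReal.toReal_one]
  set o := O.toReal
  set a := A.toReal
  have ho : 0 ≤ o := ENNReal.toReal_nonneg
  have hR0 : (0 : ℝ) < 2 ^ P := by positivity
  have hmul := mul_le_mul_of_nonneg_right hnum ho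
  have : o * 2 ^ P ≤ (4 * P * (N + 1) * a + (4 * ((N : ℝ) + 1) * (2 ^ P)⁻¹ + 8 * ε * (P + 1)) * o)
      * 2 ^ P := mul_le_mul_of_nonneg_right (le_of_le_of_eq hr (by ring)) hR0.le
  field_simp at this
  nlinarith

end exp

end Vale.Agent.P331J
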