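import Vale.Agent.P331J.Analysis

/-!
P331: laws with increasing failure rate average meet the tail condition.
-/

namespace Vale.Agent.P331J

open MeasureTheory
open scoped ENNReal NNReal

lemma sq_exp_bound (h : ℝ) (hh : 0 ≤ h) : h ^ 2 * Real.exp (1 - h) ≤ 2 := by
  have h1 : Real.exp 1 * (h / 2) ≤ Real.exp (h / 2) := by
    have := Real.add_one_le_exp (h / 2 - 1)
    rw [Real.exp_sub, sub_add_cancel, le_div_iff₀ (Real.exp_pos 1)] at this
    linarith
  have h2 : Real.exp h = Real.exp (h / 2) ^ 2 := by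
    rw [sq, ← Real.exp_add, add_halves]
  have he : (2 : ℝ) ≤ Real.exp 1 := by linarith [Real.add_one_le_exp (1 : ℝ)]
  have h3 : (Real.exp 1 * (h / 2)) ^ 2 ≤ Real.exp h := by
    rw [h2]; exact pow_le_pow_left₀ (by positivity) h1 2
  rw [Real.exp_sub, mul_div_assoc', div_le_iff₀ (Real.exp_pos h)]
  nlinarith [mul_nonneg (mul_nonneg (sq_nonneg h) (Real.exp_pos 1).le) (sub_nonneg.2 he)]

/-- Increasing failure rate average gives a small jump. -/
lemma ifra_tail (y : ℝ≥0 → ℝ) (h0 : ∀ t, 0 ≤ y t) (h1 : ∀ t, y t ≤ 1)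
    (hI : ∀ t l : ℝ≥0, 1 ≤ l → y (l * t) ≤ y t ^ (l : ℝ)) (R : ℝ≥0) (hR : 1 ≤ R) (t : ℝ≥0) :
    ∃ l : ℝ≥0, 1 ≤ l ∧ l ≤ R ∧
      (R : ℝ) * y (R * t) * (1 - y t) ≤ 2 / R * l * y (l * t) := by
  have hR1 : (1 : ℝ) ≤ R := by exact_mod_cast hR
  have hR0 : (0 : ℝ) < R := by linarith
  rcases eq_or_lt_of_le (h0 (R * t)) with ha | ha
  · refine ⟨1, le_rfl, hR, ?_⟩
    rw [← ha, mul_zero, zero_mul]
    have := h0 (1 * t)
    positivity
  have hb : 0 < y t := by
    rcases eq_or_lt_of_le (h0 t) with hb | hb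
    · have := hI t R hR
      rw [← hb, Real.zero_rpow hR0.ne'] at this
      linarith
    · exact hb
  set h := -Real.log (y (R * t)) with hh
  have hea : Real.exp (-h) = y (R * t) := by rw [hh, neg_neg, Real.exp_log ha]
  have hh0 : 0 ≤ h := neg_nonneg.2 (Real.log_nonpos ha.le (h1 _))
  set u := -Real.log (y t) with hu
  have heb : Real.exp (-u) = y t := by rw [hu, neg_neg, Real.exp_log hb]
  have hu0 : 0 ≤ u := neg_nonneg.2 (Real.log_nonpos hb.le (h1 _))
  have hRu : R * u ≤ h := by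
    have h2 := Real.log_le_log ha (hI t R hR)
    rw [Real.log_rpow hb] at h2
    rw [hh, hu]
    linarith
  have h1b : 1 - y t ≤ u := by
    rw [hu]
    linarith [Real.log_le_sub_one_of_pos hb]
  have hgap : 0 ≤ 1 - y t := sub_nonneg.2 (h1 t)
  by_cases hcase1 : h ≤ 1
  · refine ⟨R, hR, le_rfl, ?_⟩
    have : (R : ℝ) * (1 - y t) ≤ 1 := by nlinarith
    rw [div_mul_cancel₀ _ hR0.ne']
    nlinarith [mul_le_mul_of_nonneg_right this ha.le]
  push Not at hcase1
  by_cases hcase2 : h ≤ R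
  · refine ⟨R / h.toNNReal, ?_, ?_, ?_⟩
    · rw [← NNReal.coe_le_coe, NNReal.coe_div, Real.coe_toNNReal h hh0, NNReal.coe_one,
        one_le_div (by linarith)]
      exact hcase2
    · rw [← NNReal.coe_le_coe, NNReal.coe_div, Real.coe_toNNReal h hh0]
      exact div_le_self hR0.le hcase1.le
    · set l : ℝ≥0 := R / h.toNNReal with hl
      have hnn : (1 : ℝ≥0) ≤ h.toNNReal := by
        rw [← NNReal.coe_le_coe, Real.coe_toNNReal h hh0]; exact hcase1.le
      have hmul : h.toNNReal * (l * t) = R * t := by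
        rw [← mul_assoc, hl, mul_div_cancel₀ _ (lt_of_lt_of_le one_pos hnn).ne']
      have h2 := hI (l * t) h.toNNReal hnn
      rw [hmul, Real.coe_toNNReal h hh0] at h2
      have hy : 0 < y (l * t) := by
        rcases eq_or_lt_of_le (h0 (l * t)) with hy | hy
        · rw [← hy, Real.zero_rpow (by linarith)] at h2
          linarith
        · exact hy
      have h3 := Real.log_le_log ha h2
      rw [Real.log_rpow hy] at h3
      have hge : Real.exp (-1) ≤ y (l * t) := by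
        rw [← Real.le_log_iff_exp_le hy]
        nlinarith [hh]
      have hlR : (l : ℝ) = R / h := by rw [hl, NNReal.coe_div, Real.coe_toNNReal h hh0]
      rw [hlR]
      have key := sq_exp_bound h hh0
      have hlhs : (R : ℝ) * y (R * t) * (1 - y t) ≤ h * Real.exp (-h) := by
        rw [hea]
        nlinarith [mul_le_mul_of_nonneg_left h1b (mul_nonneg hR0.le ha.le),
          mul_le_mul_of_nonneg_right hRu ha.le]
      have hmid : h * Real.exp (-h) ≤ 2 / h * Real.exp (-1) := by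
        rw [div_mul_eq_mul_div, le_div_iff₀ (by linarith)]
        have : Real.exp (1 - h) * Real.exp (-1) = Real.exp (-h) := by
          rw [← Real.exp_add]; congr 1; ring
        nlinarith [mul_le_mul_of_nonneg_right key (Real.exp_pos (-1)).le]
      calc _ ≤ 2 / h * Real.exp (-1) := hlhs.trans hmid
        _ ≤ 2 / h * y (l * t) := mul_le_mul_of_nonneg_left hge (by positivity)
        _ = _ := by field_simp
  push Not at hcase2
  refine ⟨1, le_rfl, hR, ?_⟩
  rw [one_mul, NNReal.coe_one, mul_one]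
  have key := sq_exp_bound R hR0.le
  have goal : (R : ℝ) ^ 2 * y (R * t) * (1 - y t) ≤ 2 * y t := by
    rw [← hea, ← heb]
    by_cases hu1 : u ≤ 1
    · have a1 : Real.exp (-h) ≤ Real.exp (1 - R) * Real.exp (-u) := by
        rw [← Real.exp_add]; exact Real.exp_le_exp.2 (by linarith)
      have a2 : 1 - Real.exp (-u) ≤ 1 := by linarith [Real.exp_pos (-u)]
      calc (R : ℝ) ^ 2 * Real.exp (-h) * (1 - Real.exp (-u))
          ≤ (R : ℝ) ^ 2 * Real.exp (-h) := mul_le_of_le_one_right (by positivity) a2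
        _ ≤ (R : ℝ) ^ 2 * (Real.exp (1 - R) * Real.exp (-u)) :=
            mul_le_mul_of_nonneg_left a1 (sq_nonneg _)
        _ ≤ _ := by rw [← mul_assoc]; gcongr
    · push Not at hu1
      have a1 : Real.exp (-h) ≤ Real.exp (1 - R) * Real.exp (-u) := by
        rw [← Real.exp_add]; exact Real.exp_le_exp.2 (by nlinarith)
      have a2 : 1 - Real.exp (-u) ≤ 1 := by linarith [Real.exp_pos (-u)]
      calc (R : ℝ) ^ 2 * Real.exp (-h) * (1 - Real.exp (-u))
          ≤ (R : ℝ) ^ 2 * Real.exp (-h) := mul_le_of_le_one_right (by positivity) a2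
        _ ≤ (R : ℝ) ^ 2 * (Real.exp (1 - R) * Real.exp (-u)) :=
            mul_le_mul_of_nonneg_left a1 (sq_nonneg _)
        _ ≤ _ := by rw [← mul_assoc]; gcongr
  rw [div_mul_eq_mul_div, le_div_iff₀ hR0]
  nlinarith

lemma log_period (N : ℕ) : 8 * ((2 * N : ℕ) + 1 : ℝ) + 64 * ((10 + Nat.log 2 N : ℕ) + 1 : ℝ)
    ≤ 2 ^ (10 + Nat.log 2 N) := by
  have h1 : N < 2 ^ (Nat.log 2 N + 1) := Nat.lt_pow_succ_log_self one_lt_two N
  have h2 : Nat.log 2 N < 2 ^ Nat.log 2 N := Nat.lt_two_pow_self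
  have h3 : 1 ≤ 2 ^ Nat.log 2 N := Nat.one_le_two_pow
  have : 8 * (2 * N + 1) + 64 * (10 + Nat.log 2 N + 1) ≤ 2 ^ (10 + Nat.log 2 N) := by
    rw [pow_add]; rw [pow_succ] at h1; omega
  exact_mod_cast this

/-- Zero-inflated laws with increasing failure rate average. -/
lemma noJump_of_ifra (D : Measure ℝ≥0) [IsProbabilityMeasure D] (N P : ℕ)
    (hN : D.real (Set.Ioi 0) = 0 ∨ 1 ≤ (N : ℝ) * D.real (Set.Ioi 0))
    (hI : ∀ t l : ℝ≥0, 1 ≤ l → D.real (Set.Ioi (l * t)) ≤
      D.real (Set.Ioi 0) * (D.real (Set.Ioi t) / D.real (Set.Ioi 0)) ^ (l : ℝ)) :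
    NoJump (2 * N) P (4 / 2 ^ P) D := by
  intro t _
  set p := D.real (Set.Ioi (0 : ℝ≥0))
  have hmono : ∀ s, D.real (Set.Ioi s) ≤ p := fun s =>
    measureReal_mono (Set.Ioi_subset_Ioi zero_le)
  rcases hN with hp | hp
  · refine Or.inr ⟨1, le_rfl, one_le_pow₀ (by norm_num), ?_⟩
    have h0 : ∀ s, D.real (Set.Ioi s) = 0 := fun s =>
      le_antisymm (hp ▸ hmono s) measureReal_nonneg
    simp [h0]
  have hp0 : 0 < p := by
    rcases eq_or_lt_of_le (measureReal_nonneg : 0 ≤ p) with h | h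
    · replace h : p = 0 := h.symm
      rw [h, mul_zero] at hp; linarith
    · exact h
  have hp1 : p ≤ 1 := measureReal_le_one
  set y : ℝ≥0 → ℝ := fun s => D.real (Set.Ioi s) / p with hy
  have hy0 : ∀ s, 0 ≤ y s := fun s => div_nonneg measureReal_nonneg hp0.le
  have hy1 : ∀ s, y s ≤ 1 := fun s => (div_le_one hp0).2 (hmono s)
  have hx : ∀ s, D.real (Set.Ioi s) = p * y s := fun s => by
    rw [hy]; field_simp
  by_cases hbig : 1 / 2 ≤ y t
  · left
    rw [hx t]
    push_cast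
    calc (1 : ℝ) ≤ (N : ℝ) * p := hp
      _ = 2 * N * (p * (1 / 2)) := by ring
      _ ≤ _ := by gcongr
  right
  push Not at hbig
  obtain ⟨l, hl1, hl2, hl⟩ := ifra_tail y hy0 hy1 (fun s l hl => by
    simp only [hy]
    rw [div_le_iff₀ hp0]
    exact (hI s l hl).trans_eq (mul_comm _ _)) (2 ^ P) (one_le_pow₀ (by norm_num)) t
  refine ⟨l, hl1, hl2, ?_⟩
  rw [hx, hx, hx]
  push_cast at hl ⊢
  calc (2 : ℝ) ^ P * (p * y (2 ^ P * t)) * (1 - p * y t)
      ≤ (2 : ℝ) ^ P * (p * y (2 ^ P * t)) * (2 * (1 - y t)) := by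
        refine mul_le_mul_of_nonneg_left ?_ (by have := hy0 (2 ^ P * t); positivity)
        nlinarith [mul_nonneg hp0.le (hy0 t)]
    _ = 2 * p * ((2 : ℝ) ^ P * y (2 ^ P * t) * (1 - y t)) := by ring
    _ ≤ 2 * p * (2 / 2 ^ P * l * y (l * t)) := mul_le_mul_of_nonneg_left hl (by positivity)
    _ = _ := by ring

end Vale.Agent.P331J
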